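/-
R166 Loc/Basic (leaf L1).  Concrete vocabulary for Def_0296: matrix units, local algebras Loc X, boxes.
  Loc d l X    : star subalgebra of QuasiLocal d l generated by the matrix units at the sites of the finite set X.
  locAll d l   : the subspace of all elements that are local in some box (dense: Loc/Dense).
PROOF TEXT for the sorries.
  star_matrixUnit: ext v c / use the adjoint characterisation: ContinuousLinearMap.star_eq_adjoint, ContinuousLinearMap.eq_adjoint_iff:
     ⟪E_ab v, w⟫ = ⟪v, E_ba w⟫; lp.inner_eq_tsum (hasSum_inner); reindex the sum by the involution-like bijection c ↦ c.update x ..: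
     easier: matrixUnit = P_a ∘ U with U = reindex by the involution swap a b at x (unitary, selfadjoint), P_a a selfadjoint projection and
     U P_a U = P_b.  Any proof is fine.
  matrixUnit_comm: ext v c; simp only [ContinuousLinearMap.mul_apply, matrixUnit_apply]; Finsupp.update_apply; the two updates at x ≠ y commute
     (Finsupp.update_comm) and (c.update y e) x = c x.
  norm_matrixUnit_le: opNorm_le_bound: ‖P (U v)‖ ≤ ‖U v‖ = ‖v‖ (l2Projection is mkContinuous 1; LinearIsometryEquiv.norm_map).
Helper lemmas: prefix `lb_`.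
-/
import Claimed.Prelude.Def_0296
import Claimed.Agent.R166.Abs.Cls

set_option autoImplicit false
set_option linter.unusedSectionVars false

namespace Claimed.Agent.R166

open Claims.C0296.Heisenberg
open scoped Classical

noncomputable section

variable (d ℓ : ℕ)

instance instCompleteSpaceQuasiLocal : CompleteSpace (QuasiLocal d ℓ) :=
  (StarSubalgebra.isClosed_topologicalClosure _).completeSpace_coe

variable {d ℓ}

theorem l2Reindex_apply' {ι κ : Type} (e : ι ≃ κ) (f : L2 ι) (j : κ) :
    l2Reindex e f j = f (e.symm j) := rfl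

theorem l2Reindex_symm_apply' {ι κ : Type} (e : ι ≃ κ) (v : L2 κ) (i : ι) :
    (l2Reindex e).symm v i = v (e i) := rfl

theorem l2Projection_apply' {ι : Type} (p : ι → Prop) (v : L2 ι) (i : ι) :
    l2Projection p v i = if p i then v i else 0 := by classical rfl

theorem matrixUnit_apply (x : Site d) (a b : Level ℓ) (v : SpinHilbert d ℓ)
    (c : Configuration d ℓ) :
    matrixUnit d ℓ x a b v c = if c x = a then v (c.update x b) else 0 := by
  simp only [matrixUnit, ContinuousLinearMap.comp_apply, l2Projection_apply']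
  split_ifs with h
  · change v (c.update x ((Equiv.swap a b).symm (c x))) = v (c.update x b)
    simp [h]
  · rfl

theorem relabel_matrixUnit (e : Equiv.Perm (Site d)) (x : Site d) (a b : Level ℓ) :
    operatorRelabel d ℓ e (matrixUnit d ℓ x a b) = matrixUnit d ℓ (e x) a b := by
  ext v c
  simp only [operatorRelabel, LinearIsometryEquiv.conjStarAlgEquiv_apply_apply,
    l2Reindex_apply', matrixUnit_apply]
  change (if c (e x) = a then
    (l2Reindex (Finsupp.equivCongrLeft e)).symm v
      (((Finsupp.equivCongrLeft e).symm c).update x b) else 0) = _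
  rw [l2Reindex_symm_apply']
  by_cases h : c (e x) = a
  · simp only [h, if_pos]
    apply congrArg v
    ext y
    simp only [Finsupp.equivCongrLeft_apply, Finsupp.equivMapDomain_apply,
      Finsupp.update_apply]
    by_cases hy : y = e x
    · subst y; simp
    · have hy' : e.symm y ≠ x := fun hxy => hy (by simpa using congrArg e hxy)
      simp [hy, hy']
  · simp only [h, ite_false]

theorem star_matrixUnit (x : Site d) (a b : Level ℓ) :
    star (matrixUnit d ℓ x a b) = matrixUnit d ℓ x b a := by
  rw [ContinuousLinearMap.star_eq_adjoint]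
  symm
  rw [ContinuousLinearMap.eq_adjoint_iff]
  intro v w
  rw [lp.inner_eq_tsum, lp.inner_eq_tsum]
  rw [← (configPerm d ℓ x (Equiv.swap a b)).tsum_eq]
  apply tsum_congr
  intro c
  simp only [matrixUnit_apply]
  have hσ : (configPerm d ℓ x (Equiv.swap a b)) c = c.update x (Equiv.swap a b (c x)) := rfl
  rw [hσ]
  by_cases h : c x = a
  · have h1 : (c.update x (Equiv.swap a b (c x))) x = b := by simp [h]
    have h2 : (c.update x (Equiv.swap a b (c x))).update x a = c := by
      ext y
      by_cases hy : y = x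
      · subst hy; simp [h]
      · simp [Finsupp.update_apply, hy]
    have h3 : c.update x (Equiv.swap a b (c x)) = c.update x b := by simp [h]
    rw [if_pos h1, if_pos h, h2, h3]
  · have h1 : (c.update x (Equiv.swap a b (c x))) x ≠ b := by
      intro hb
      apply h
      have : Equiv.swap a b (c x) = b := by simpa using hb
      have h4 := congrArg (Equiv.swap a b) this
      simpa using h4
    rw [if_neg h1, if_neg h]
    simp

theorem matrixUnit_comm {x y : Site d} (hxy : x ≠ y) (a b c e : Level ℓ) :
    matrixUnit d ℓ x a b * matrixUnit d ℓ y c e = matrixUnit d ℓ y c e * matrixUnit d ℓ x a b := by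
  ext v c'
  simp only [ContinuousLinearMap.mul_apply, matrixUnit_apply]
  have h1 : (c'.update x b) y = c' y := by
    simp [Finsupp.update_apply, hxy.symm]
  have h2 : (c'.update y e) x = c' x := by
    simp [Finsupp.update_apply, hxy]
  have h3 : (c'.update x b).update y e = (c'.update y e).update x b := by
    ext z
    by_cases hzx : z = x
    · subst hzx; simp [Finsupp.update_apply, hxy]
    · by_cases hzy : z = y
      · subst hzy; simp [Finsupp.update_apply, hzx]
      · simp [Finsupp.update_apply, hzx, hzy]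
  rw [h1, h2, h3]
  by_cases ha : c' x = a <;> by_cases hc : c' y = c <;> simp [ha, hc]

theorem lb_norm_l2Projection_apply_le {ι : Type} (p : ι → Prop) (v : L2 ι) :
    ‖l2Projection p v‖ ≤ ‖v‖ := by
  apply lp.norm_mono (by norm_num : (2 : ENNReal) ≠ 0)
  intro i
  rw [l2Projection_apply']
  split_ifs <;> simp

theorem norm_matrixUnit_le (x : Site d) (a b : Level ℓ) : ‖matrixUnit d ℓ x a b‖ ≤ 1 := by
  apply ContinuousLinearMap.opNorm_le_bound _ zero_le_one
  intro v
  rw [one_mul]
  simp only [matrixUnit, ContinuousLinearMap.comp_apply]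
  refine (lb_norm_l2Projection_apply_le _ _).trans ?_
  exact le_of_eq ((l2Reindex (configPerm d ℓ x (Equiv.swap a b))).norm_map v)

theorem star_localUnit (x : Site d) (a b : Level ℓ) :
    star (localUnit d ℓ x a b) = localUnit d ℓ x b a :=
  Subtype.ext (star_matrixUnit x a b)

theorem localUnit_comm {x y : Site d} (hxy : x ≠ y) (a b c e : Level ℓ) :
    localUnit d ℓ x a b * localUnit d ℓ y c e = localUnit d ℓ y c e * localUnit d ℓ x a b :=
  Subtype.ext (matrixUnit_comm hxy a b c e)

theorem norm_localUnit_le (x : Site d) (a b : Level ℓ) : ‖localUnit d ℓ x a b‖ ≤ 1 :=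
  norm_matrixUnit_le x a b

variable (d ℓ)

/-- generators of the local algebra of `X`. -/
def locGen (X : Finset (Site d)) : Set (QuasiLocal d ℓ) :=
  {A | ∃ x ∈ X, ∃ a b : Level ℓ, A = localUnit d ℓ x a b}

/-- the local algebra of the finite set `X`. -/
def Loc (X : Finset (Site d)) : StarSubalgebra ℂ (QuasiLocal d ℓ) :=
  StarAlgebra.adjoin ℂ (locGen d ℓ X)

variable {d ℓ}

theorem Loc_mono {X Y : Finset (Site d)} (h : X ⊆ Y) : Loc d ℓ X ≤ Loc d ℓ Y := by
  apply StarAlgebra.adjoin_mono
  rintro A ⟨x, hx, a, b, rfl⟩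
  exact ⟨x, h hx, a, b, rfl⟩

theorem localUnit_mem_Loc {X : Finset (Site d)} {x : Site d} (hx : x ∈ X) (a b : Level ℓ) :
    localUnit d ℓ x a b ∈ Loc d ℓ X :=
  StarAlgebra.subset_adjoin ℂ _ ⟨x, hx, a, b, rfl⟩

theorem box_mono {n m : ℕ} (h : n ≤ m) : box d n ⊆ box d m := by
  intro x hx
  simp only [box, Fintype.mem_piFinset, Finset.mem_Icc] at hx ⊢
  intro i
  have := hx i
  constructor <;> omega

theorem mem_box {n : ℕ} {x : Site d} : x ∈ box d n ↔ ∀ i, -(n : ℤ) ≤ x i ∧ x i ≤ n := by
  simp only [box, Fintype.mem_piFinset, Finset.mem_Icc]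

theorem exists_subset_box (X : Finset (Site d)) : ∃ n : ℕ, X ⊆ box d n := by
  refine ⟨X.sup fun x => Finset.univ.sup fun i => (x i).natAbs, ?_⟩
  intro x hx
  rw [mem_box]
  intro i
  have h1 : (x i).natAbs ≤ Finset.univ.sup fun i => (x i).natAbs :=
    Finset.le_sup (f := fun i => (x i).natAbs) (Finset.mem_univ i)
  have h2 : (Finset.univ.sup fun i => (x i).natAbs) ≤
      X.sup fun x => Finset.univ.sup fun i => (x i).natAbs :=
    Finset.le_sup (f := fun x : Site d => Finset.univ.sup fun i => (x i).natAbs) hx
  have h3 := h1.trans h2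
  constructor <;> omega

variable (d ℓ)

/-- elements that are local in some box. -/
def locAll : Submodule ℂ (QuasiLocal d ℓ) where
  carrier := {A | ∃ n : ℕ, A ∈ Loc d ℓ (box d n)}
  add_mem' := by
    rintro A B ⟨n, hA⟩ ⟨m, hB⟩
    exact ⟨max n m, add_mem (Loc_mono (box_mono (le_max_left _ _)) hA)
      (Loc_mono (box_mono (le_max_right _ _)) hB)⟩
  zero_mem' := ⟨0, zero_mem _⟩
  smul_mem' := by
    rintro c A ⟨n, hA⟩
    exact ⟨n, (Loc d ℓ (box d n)).smul_mem hA c⟩

/-- the local algebra of the box of radius `s`, as a subspace. -/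
def locBox (s : ℕ) : Submodule ℂ (QuasiLocal d ℓ) :=
  (Loc d ℓ (box d s)).toSubalgebra.toSubmodule

variable {d ℓ}

theorem mem_locAll {A : QuasiLocal d ℓ} : A ∈ locAll d ℓ ↔ ∃ n : ℕ, A ∈ Loc d ℓ (box d n) :=
  Iff.rfl

theorem mem_locBox {s : ℕ} {A : QuasiLocal d ℓ} : A ∈ locBox d ℓ s ↔ A ∈ Loc d ℓ (box d s) :=
  Iff.rfl

end

end Claimed.Agent.R166
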