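/-
R166 Loc/Comm (leaf L2).  Local algebras of disjoint sets commute; the concrete LocNet.
PROOF TEXT.  Fix B ∈ Loc Y.  First show: every generator g ∈ locGen X commutes with every element of Loc Y:
 the centralizer of {g, star g} is a star subalgebra (StarSubalgebra.centralizer ℂ s; membership: StarSubalgebra.mem_centralizer_iff) containing
 locGen Y (localUnit_comm, x ≠ y because Disjoint X Y: Finset.disjoint_left; star_localUnit for the star), hence Loc Y ≤ centralizer
 (StarAlgebra.adjoin_le).  Then the same argument once more with the roles exchanged: the centralizer of {B, star B} contains locGen X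
 (star B ∈ Loc Y by star_mem).   (Or StarAlgebra.adjoin_induction twice.)
Helper lemmas: prefix `lc_`.
-/
import Claimed.Agent.R166.Loc.Basic

set_option autoImplicit false
set_option linter.unusedSectionVars false

namespace Claimed.Agent.R166

open Claims.C0296.Heisenberg
open scoped Classical

noncomputable section

variable {d ℓ : ℕ}

theorem lc_gen_comm {X Y : Finset (Site d)} (h : Disjoint X Y) {g B : QuasiLocal d ℓ}
    (hg : g ∈ locGen d ℓ X) (hB : B ∈ Loc d ℓ Y) : g * B = B * g := by
  obtain ⟨x, hx, a, b, rfl⟩ := hg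
  have hle : Loc d ℓ Y ≤ StarSubalgebra.centralizer ℂ
      ({localUnit d ℓ x a b} : Set (QuasiLocal d ℓ)) := by
    apply StarAlgebra.adjoin_le
    rintro _ ⟨y, hy, c, e, rfl⟩
    have hxy : x ≠ y := fun hxy => Finset.disjoint_left.mp h hx (hxy ▸ hy)
    rw [SetLike.mem_coe, StarSubalgebra.mem_centralizer_iff]
    intro g hg
    rw [Set.mem_singleton_iff] at hg
    subst hg
    refine ⟨localUnit_comm hxy a b c e, ?_⟩
    rw [star_localUnit]
    exact localUnit_comm hxy b a c e
  have := (StarSubalgebra.mem_centralizer_iff ℂ).mp (hle hB) _ (Set.mem_singleton _)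
  exact this.1

theorem Loc_comm {X Y : Finset (Site d)} (h : Disjoint X Y) {A B : QuasiLocal d ℓ}
    (hA : A ∈ Loc d ℓ X) (hB : B ∈ Loc d ℓ Y) : A * B = B * A := by
  have hle : Loc d ℓ X ≤ StarSubalgebra.centralizer ℂ ({B} : Set (QuasiLocal d ℓ)) := by
    apply StarAlgebra.adjoin_le
    intro g hg
    rw [SetLike.mem_coe, StarSubalgebra.mem_centralizer_iff]
    intro B' hB'
    rw [Set.mem_singleton_iff] at hB'
    subst hB'
    exact ⟨(lc_gen_comm h hg hB).symm, (lc_gen_comm h hg (star_mem hB)).symm⟩
  have := (StarSubalgebra.mem_centralizer_iff ℂ).mp (hle hA) _ (Set.mem_singleton _)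
  exact this.1.symm

variable (d ℓ)

/-- the concrete local net of Def_0296. -/
def locNet : LocNet (Site d) (QuasiLocal d ℓ) where
  L X := (Loc d ℓ X : Set (QuasiLocal d ℓ))
  zero_mem X := zero_mem (Loc d ℓ X)
  sub_mem hA hB := sub_mem hA hB
  mul_mem hA hB := mul_mem hA hB
  mono h := Loc_mono h
  comm h hA hB := Loc_comm h hA hB

end

end Claimed.Agent.R166
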