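/-
R166 Loc/Dense (leaf L3).  The local elements are dense in the quasi-local algebra.
PROOF TEXT.  S := {A | ∃ x a b, A = matrixUnit d ℓ x a b} ⊆ SpinOperator.  quasiLocalAlgebra = (StarAlgebra.adjoin ℂ S).topologicalClosure.
 Step 1: every T ∈ StarAlgebra.adjoin ℂ S is the coercion of some A ∈ locAll:  StarAlgebra.adjoin_induction:
   generator matrixUnit x a b = ↑(localUnit x a b), localUnit ∈ Loc {x} ≤ Loc (box n) (exists_subset_box {x}, Loc_mono, localUnit_mem_Loc);
   algebraMap r = ↑(algebraMap r) ∈ Loc (box 0);  add / mul: take max of the two radii (Loc_mono (box_mono ..)); star: star_mem.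
 Step 2: for A : QuasiLocal, ↑A ∈ closure (adjoin ℂ S) (StarSubalgebra.topologicalClosure_coe).  Metric.dense_iff / Metric.mem_closure_iff:
   for eps pick T ∈ adjoin with dist ↑A T < eps, T = ↑A', A' ∈ locAll, dist A A' = dist ↑A ↑A' (Subtype.dist_eq).
Helper lemmas: prefix `ld_`.
-/
import Claimed.Agent.R166.Loc.Basic

set_option autoImplicit false
set_option linter.unusedSectionVars false

namespace Claimed.Agent.R166

open Claims.C0296.Heisenberg
open scoped Classical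

noncomputable section

variable {d ℓ : ℕ}

theorem ld_adjoin_lift {T : SpinOperator d ℓ}
    (hT : T ∈ StarAlgebra.adjoin ℂ {A | ∃ x a b, A = matrixUnit d ℓ x a b}) :
    ∃ A : QuasiLocal d ℓ, A ∈ locAll d ℓ ∧ (A : SpinOperator d ℓ) = T := by
  induction hT using StarAlgebra.adjoin_induction with
  | mem T hT =>
    obtain ⟨x, a, b, rfl⟩ := hT
    obtain ⟨n, hn⟩ := exists_subset_box ({x} : Finset (Site d))
    exact ⟨localUnit d ℓ x a b,
      ⟨n, Loc_mono hn (localUnit_mem_Loc (Finset.mem_singleton_self x) a b)⟩, rfl⟩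
  | algebraMap r =>
    exact ⟨algebraMap ℂ (QuasiLocal d ℓ) r, ⟨0, algebraMap_mem _ r⟩, rfl⟩
  | add S T _ _ hS hT =>
    obtain ⟨A, hA, rfl⟩ := hS
    obtain ⟨B, hB, rfl⟩ := hT
    exact ⟨A + B, add_mem hA hB, rfl⟩
  | mul S T _ _ hS hT =>
    obtain ⟨A, ⟨n, hA⟩, rfl⟩ := hS
    obtain ⟨B, ⟨m, hB⟩, rfl⟩ := hT
    exact ⟨A * B, ⟨max n m, mul_mem (Loc_mono (box_mono (le_max_left _ _)) hA)
      (Loc_mono (box_mono (le_max_right _ _)) hB)⟩, rfl⟩
  | star T _ hT =>
    obtain ⟨A, ⟨n, hA⟩, rfl⟩ := hT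
    exact ⟨star A, ⟨n, star_mem hA⟩, rfl⟩

theorem dense_locAll : Dense (locAll d ℓ : Set (QuasiLocal d ℓ)) := by
  intro A
  rw [Metric.mem_closure_iff]
  intro ε hε
  have hA : (A : SpinOperator d ℓ) ∈ closure
      ((StarAlgebra.adjoin ℂ {A | ∃ x a b, A = matrixUnit d ℓ x a b} :
        StarSubalgebra ℂ (SpinOperator d ℓ)) : Set (SpinOperator d ℓ)) := by
    have h1 : (A : SpinOperator d ℓ) ∈ (StarAlgebra.adjoin ℂ
        {A | ∃ x a b, A = matrixUnit d ℓ x a b}).topologicalClosure := A.property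
    rw [← SetLike.mem_coe, StarSubalgebra.topologicalClosure_coe] at h1
    exact h1
  rw [Metric.mem_closure_iff] at hA
  obtain ⟨T, hT, hd⟩ := hA ε hε
  obtain ⟨A', hA', rfl⟩ := ld_adjoin_lift hT
  exact ⟨A', hA', by rw [Subtype.dist_eq]; exact hd⟩

end

end Claimed.Agent.R166
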